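import Vale.Agent.P181.TB.Defs
import Vale.Agent.P181.H54.Step

set_option autoImplicit false

namespace Vale.Agent.P181.TB.H743

/-- **(TB5)** -/
theorem mono : MonoTB := by
  intro a b k lam mu h0 h1
  have h : mu = H54.addFirst lam a := by
    funext i
    refine Fin.cases ?_ (fun j => ?_) i
    · simp [H54.addFirst, h0]
    · simp [H54.addFirst, h1 j]
  rw [h]
  exact H54.plethMult_mono a b lam

end Vale.Agent.P181.TB.H743
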